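import Mathlib
import Crest.Prelude.Def_QuadricBundle

/-!
# Row 258 (S0396): definitions and blueprint

Counterexample to Griffiths' conjecture on `ℙ¹ × ℙ¹`.

`E₀` is a nef rank two bundle whose second symmetric power has three sections `q = (A,B,C)`
without common zero.  Over the open set `good` the dual bundle `F₀` is trivialised with
coordinates `p = (x, Y, v₀, v₁)`; the four bilinear forms `zz p` satisfy
`(zz p i)^2 = bb Y (wq p) i` where `wq p = q(p) ∈ ℂ³` and the `bb Y · i` are linear forms on `ℂ³`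
that move with `Y`.  `E_k = (x^k, y^k)^* E₀ ⊗ O(1,1)` (with `Y = y²`) is ample.  A Griffiths
positive metric on `E_k` gives (dual metric, summed over the covering group and the Klein four
group) an `Adm (2/k)` function.  A sequence of those has an upper limit `U` along an ultrafilter
with the properties `Lim U`; `U` is then constant on the fibres of `wq`, which forces
`U = ∑ cᵢ(Y) |bb Y w i|` for every `Y`, hence `U = 0`, a contradiction.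
-/

set_option autoImplicit false

noncomputable section

namespace Crest.Agent.R258

open Filter Topology Metric Set

/-! ## One complex variable -/

/-- approximate local sub-mean value property of `u` at `c` (with continuity near `c`). -/
def LSM (u : ℂ → ℝ) (c : ℂ) : Prop :=
  (∀ᶠ ζ in 𝓝 c, ContinuousAt u ζ) ∧
    ∀ δ : ℝ, 0 < δ → ∀ᶠ r in 𝓝[>] (0 : ℝ), u c ≤ Real.circleAverage u c r + δ * r ^ 2

/-- `f` is a polynomial function of degree at most `n`. -/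
def IsPoly (n : ℕ) (f : ℂ → ℂ) : Prop :=
  ∃ p : Polynomial ℂ, p.natDegree ≤ n ∧ ∀ ζ, f ζ = p.eval ζ

/-- Hermitian forms on `ℂ²`. -/
def Herm (f : ℂ → ℂ → ℝ) : Prop :=
  ∃ (a d : ℝ) (b : ℂ), ∀ v₀ v₁ : ℂ,
    f v₀ v₁ = a * Complex.normSq v₀ + d * Complex.normSq v₁ + (b * v₀ * (starRingEnd ℂ) v₁).re

/-! ## The generic trivialisation -/

/-- points `(x, Y, v₀, v₁)` of the total space. -/
abbrev Pt : Type := ℂ × ℂ × ℂ × ℂ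

/-- points `(A, B, C)` of the target of `q`. -/
abbrev Wt : Type := ℂ × ℂ × ℂ

def good (p : Pt) : Prop := p.1 ≠ 0 ∧ p.2.1 ≠ 0 ∧ p.2.1 ^ 4 ≠ 1

def zz (p : Pt) : Fin 4 → ℂ :=
  ![p.2.2.1 - p.1 * p.2.2.2, p.2.2.1 + p.1 * p.2.2.2, p.2.2.2 + p.1 * p.2.2.1,
    p.2.2.2 - p.1 * p.2.2.1]

def bb (Y : ℂ) (w : Wt) : Fin 4 → ℂ :=
  ![Y ^ 5 * (4 * w.1 * Y + 2 * w.2.2), -(4 * w.2.1 + 2 * w.2.2 * Y),
    -((Y ^ 2 - 1) ^ 2 * (w.1 * (1 + 2 * Y ^ 2) + w.2.1 * (2 + Y ^ 2) + w.2.2 * Y)),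
    (Y ^ 2 + 1) ^ 2 * (w.1 * (2 * Y ^ 2 - 1) + w.2.1 * (2 - Y ^ 2) + w.2.2 * Y)]

def Psi (Y W₀ W₂ W₃ : ℂ) : Wt :=
  ((2 * (W₃ - W₂) + Y ^ 2 * (Y * W₀ + W₂ + W₃)) / 4, -(Y * W₀ + W₂ + W₃) / 4,
    ((1 - Y ^ 4) * W₀ - Y * (Y ^ 2 - 2) * W₂ - Y * (Y ^ 2 + 2) * W₃) / 2)

def wq (p : Pt) : Wt :=
  Psi p.2.1 (zz p 0 ^ 2 / p.2.1 ^ 5) (zz p 2 ^ 2 / (p.2.1 ^ 2 - 1) ^ 2)
    (-(zz p 3 ^ 2) / (p.2.1 ^ 2 + 1) ^ 2)

/-- `z` is a point of the fibre curve over `(Y, w)`. -/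
def Over (Y : ℂ) (w : Wt) (z : Fin 4 → ℂ) : Prop := ∀ i, z i ^ 2 = bb Y w i

/-- back from `z`-coordinates to the total space. -/
def kap (Y : ℂ) (z : Fin 4 → ℂ) : Pt :=
  ((z 2 - z 3) / (z 0 + z 1), Y, (z 0 + z 1) / 2, (z 2 + z 3) / 2)

/-- the polynomial (in `Y`, degree ≤ 31) whose zeros are the exceptional points of the fibre. -/
def RR (Y : ℂ) (w : Wt) : ℂ :=
  bb Y w 0 * bb Y w 1 * bb Y w 2 * bb Y w 3 * (bb Y w 1 - bb Y w 0) ^ 2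

/-- genericity polynomial: `Gam w ≠ 0` says that the zero `Y = -2B/C` of `bb · w 1` is not a zero
of the other three forms. -/
def Gam (w : Wt) : ℂ :=
  w.2.1 * w.2.2 * (w.2.2 ^ 2 - 4 * w.1 * w.2.1) * (4 * w.2.1 ^ 2 - w.2.2 ^ 2) *
    (4 * w.2.1 ^ 2 + w.2.2 ^ 2) * (w.1 * (w.2.2 ^ 2 + 8 * w.2.1 ^ 2) + 4 * w.2.1 ^ 3) *
    (w.1 * (8 * w.2.1 ^ 2 - w.2.2 ^ 2) - 4 * w.2.1 ^ 3)

/-- the two generators of the Klein four group. -/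
def sig1 (p : Pt) : Pt := (-p.1, p.2.1, p.2.2.1, -p.2.2.2)

def sig2 (p : Pt) : Pt := (p.1⁻¹, p.2.1, p.1 * p.2.2.2, p.1 * p.2.2.1)

/-- what a Griffiths positive metric on `E_k` gives, before symmetrisation. -/
structure Adm0 (ε : ℝ) (h : Pt → ℝ) : Prop where
  herm : ∀ x Y : ℂ, good (x, Y, 0, 0) → Herm fun v₀ v₁ => h (x, Y, v₀, v₁)
  pos : ∀ p, good p → (p.2.2.1 ≠ 0 ∨ p.2.2.2 ≠ 0) → 0 < h p
  cont : ContinuousOn h {p | good p}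
  lsm : ∀ (γ : ℂ → Pt) (c : ℂ), AnalyticAt ℂ γ c → good (γ c) → LSM (fun ζ => h (γ ζ)) c
  growth : ∃ B : ℝ, 0 ≤ B ∧ ∀ p, good p →
    h p ≤ B * ((1 + ‖p.1‖) * (1 + ‖p.1‖⁻¹) * (1 + ‖p.2.1‖)) ^ ε * ‖wq p‖

structure Adm (ε : ℝ) (h : Pt → ℝ) : Prop extends Adm0 ε h where
  sym1 : ∀ p, good p → h (sig1 p) = h p
  sym2 : ∀ p, good p → h (sig2 p) = h p

/-- properties of the upper limit. -/
structure Lim (U : Pt → ℝ) : Prop where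
  herm : ∀ x Y : ℂ, good (x, Y, 0, 0) → Herm fun v₀ v₁ => U (x, Y, v₀, v₁)
  nonneg : ∀ p, good p → 0 ≤ U p
  usc : ∀ p, good p → ∀ c : ℝ, U p < c → ∀ᶠ p' in 𝓝 p, U p' < c
  smp : ∀ (γ : ℂ → Pt) (c : ℂ) (r m : ℝ), 0 < r →
    (∀ ζ ∈ closedBall c r, AnalyticAt ℂ γ ζ ∧ good (γ ζ)) →
    (∀ ζ ∈ sphere c r, U (γ ζ) ≤ m) → (∃ ζ₁ ∈ sphere c r, U (γ ζ₁) < m) →
    ∀ ζ₀ ∈ ball c r, U (γ ζ₀) < m
  curve : ∀ (w : Wt) (Y Y₀ : ℂ) (z : Fin 4 → ℂ) (m : ℝ), RR Y w ≠ 0 → RR Y₀ w ≠ 0 → Y ≠ Y₀ →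
    Over Y w z → (∀ z₀, Over Y₀ w z₀ → U (kap Y₀ z₀) < m) → U (kap Y z) ≤ m
  sym1 : ∀ p, good p → U (sig1 p) = U p
  sym2 : ∀ p, good p → U (sig2 p) = U p
  nontriv : ∃ x ∈ closedBall (3 : ℂ) 1, ∃ Y ∈ closedBall (3 : ℂ) 1,
    0 < U (x, Y, 1, 0) + U (x, Y, 0, 1)

/-! ## The bundle -/

open Crest.AlgGeometry.QuadricBundle

/-- sign attached to a chart index. -/
def sgn (a : Fin 2) : ℂ := if a = 0 then 1 else -1

/-- first generic coordinate `v₀` in terms of the frame coordinates `u` of the dual bundle. -/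
def al (η x y : ℂ) (u : Fin 2 → ℂ) : ℂ := y ^ 5 * u 0 - η * x * u 1

/-- second generic coordinate `v₁`. -/
def be (η x y : ℂ) (u : Fin 2 → ℂ) : ℂ := (y ^ 8 - 1) * u 1 - x * y ^ 12 * al η x y u

def Za (η x y : ℂ) (u : Fin 2 → ℂ) : ℂ :=
  u 0 - η * x * y ^ 3 * u 1 + η * x ^ 2 * y ^ 7 * al η x y u

def Zb (η x y : ℂ) (u : Fin 2 → ℂ) : ℂ := al η x y u + η * x * be η x y u

def Zc (η x y : ℂ) (u : Fin 2 → ℂ) : ℂ :=
  (y ^ 4 + 1) * u 1 - x * (y ^ 8 + y ^ 4 + 1) * al η x y u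

def Zd (η x y : ℂ) (u : Fin 2 → ℂ) : ℂ :=
  (y ^ 4 - 1) * u 1 - x * (y ^ 8 - y ^ 4 + 1) * al η x y u

/-- change of dual frame coordinates `x ↦ 1/x`, as a matrix acting on column vectors `u`. -/
def Mx (η x y : ℂ) : Matrix (Fin 2) (Fin 2) ℂ :=
  !![-η - y ^ 8 * (x ^ 2 * y ^ 4 + η * (y ^ 8 + 1)),
      y ^ 3 * (x + η * y ^ 4 * x⁻¹ + η * x * (x ^ 2 * y ^ 4 + η * (y ^ 8 + 1)));
     -(x * (y ^ 16 + y ^ 8 + 1) * y ^ 5), y ^ 12 + η * x ^ 2 * (y ^ 16 + y ^ 8 + 1)]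

/-- change of dual frame coordinates `y ↦ 1/y`. -/
def My (η x y : ℂ) : Matrix (Fin 2) (Fin 2) ℂ :=
  !![y ^ 4 - η * x ^ 2 * (y ^ 16 + y ^ 8 + 1),
      -(η * x * y⁻¹) + η * x * y ^ 7 + η ^ 2 * x ^ 3 * (y ^ 16 + y ^ 8 + 1) * y⁻¹ ^ 5;
     x * (y ^ 16 + y ^ 8 + 1) * y⁻¹ ^ 5, -y ^ 2 - η * x ^ 2 * (y ^ 16 + y ^ 8 + 1) * y⁻¹ ^ 10]

/-- change of dual frame coordinates of `F₀` from chart `α` (coordinates `x, y`) to chart `β`. -/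
def MM (α β : Chart) (x y : ℂ) : Matrix (Fin 2) (Fin 2) ℂ :=
  (if α.2 = β.2 then 1 else My (sgn α.2) (if α.1 = β.1 then x else x⁻¹) y) *
    (if α.1 = β.1 then 1 else Mx (sgn α.2) x y)

/-- transition matrices of `E_k`. -/
def gk (k : ℕ) : Transition 2 := fun α β p =>
  lineTrans 1 1 α β p • (MM α β (p 0 ^ k) (p 1 ^ k)).transpose

/-- the four linear forms `Zᵢ` (global sections of `E₀(0, δᵢ)`, `δ = (1,1,2,2)`) in chart `α`. -/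
def ZZ (α : Chart) (x y : ℂ) (u : Fin 2 → ℂ) : Fin 4 → ℂ :=
  ![sgn α.1 * (if α.2 = 0 then Za 1 x y u else Zb (-1) x y u),
    (if α.2 = 0 then Zb 1 x y u else Za (-1) x y u),
    sgn α.2 * Zc (sgn α.2) x y u, sgn α.1 * Zd (sgn α.2) x y u]

/-- the three quadratic forms `q` (global sections of `Sym² E₀`) in chart `α`. -/
def qq (α : Chart) (x y : ℂ) (u : Fin 2 → ℂ) : Wt :=
  let t := Psi (y ^ 2) (sgn α.2 * Za (sgn α.2) x y u ^ 2) (Zc (sgn α.2) x y u ^ 2)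
    (-(Zd (sgn α.2) x y u ^ 2))
  if α.2 = 0 then t else (t.2.1, t.1, t.2.2)

/-- the dual metric: squared norm of the covector `u` for the Hermitian matrix `H`. -/
def dualSq (H : Matrix (Fin 2) (Fin 2) ℂ) (u : Fin 2 → ℂ) : ℝ :=
  (∑ i, u i * (starRingEnd ℂ) ((H⁻¹.mulVec u) i)).re

end Crest.Agent.R258

end
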